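import Vale.Agent.P106.R.H812.PQa

/-!
# P106 / R / H812 : StPQ, planks of the same piece (helper812)
-/

set_option autoImplicit false

namespace Vale.Agent.P106.R.H812

open Vale.Agent.P106.R.C2 Vale.Agent.P106.R.E Vale.Agent.P106.R.H540
open Vale.Agent.P106.W (Cbx)

theorem floor_ediv (a : ℤ) (m : ℕ) : ⌊(a : ℝ) / 2 ^ m⌋ = a / 2 ^ m := by
  have h : (2 : ℝ) ^ m = ((2 ^ m : ℕ) : ℝ) := by push_cast; rfl
  rw [h, Int.floor_div_natCast, Int.floor_intCast]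
  push_cast
  rfl

theorem quo_diff {a b : ℤ} {m : ℕ} (h : a / 2 ^ m = b / 2 ^ m) : |(a : ℝ) - b| ≤ 2 ^ m := by
  rw [← floor_ediv, ← floor_ediv] at h
  have h1 := Int.abs_sub_lt_one_of_floor_eq_floor h
  have hp : (0 : ℝ) < 2 ^ m := by positivity
  rw [← sub_div, abs_div, abs_of_pos hp, div_lt_one hp] at h1
  exact h1.le

theorem quo_le (a : ℤ) (m : ℕ) : |(a : ℝ) - ((a / 2 ^ m : ℤ) : ℝ) * 2 ^ m| ≤ 2 ^ m := by
  have hp : (0 : ℝ) < 2 ^ m := by positivity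
  have h1 := Int.floor_le ((a : ℝ) / 2 ^ m)
  have h2 := (Int.lt_floor_add_one ((a : ℝ) / 2 ^ m)).le
  rw [floor_ediv] at h1 h2
  rw [le_div_iff₀ hp] at h1
  rw [div_le_iff₀ hp] at h2
  rw [abs_le]
  constructor <;> nlinarith

theorem thin_real {w w' X X' Hn E T G a0 a1 b0 b1 s0 s1 s0' s1' y0' y1' ρ H : ℝ} (hE : 0 < E) (hHn : 0 < Hn)
    (hH : H = Hn / E) (hδ : |(w' + X') - (w + X)| ≤ 1)
    (hX : X * Hn = (-(G * a0) * (b0 - s0) + T * E * (b0 ^ 2 - s0 ^ 2) / 2) +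
      (-(G * a1) * (b1 - s1) + T * E * (b1 ^ 2 - s1 ^ 2) / 2))
    (hX' : X' * Hn = (-(G * a0) * (b0 - s0') + T * E * (b0 ^ 2 - s0' ^ 2) / 2) +
      (-(G * a1) * (b1 - s1') + T * E * (b1 ^ 2 - s1' ^ 2) / 2))
    (h0 : |y0' - G * a0 / E| ≤ ρ) (h1 : |y1' - G * a1 / E| ≤ ρ) (f0 : |s0' - s0| ≤ ρ) (f1 : |s1' - s1| ≤ ρ)
    (hρ : ρ ^ 2 ≤ H) :
    |(w' * Hn / E - T * (s0' ^ 2 + s1' ^ 2) / 2) - (w * Hn / E - T * (s0 ^ 2 + s1 ^ 2) / 2) +
      (y0' * (s0' - s0) + y1' * (s1' - s1))| ≤ 3 * H := by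
  have hρ0 : 0 ≤ ρ := (abs_nonneg _).trans h0
  have hH0 : 0 < H := by rw [hH]; positivity
  have e1 : (X' - X) * H = G * a0 / E * (s0' - s0) + G * a1 / E * (s1' - s1) -
      T * ((s0' ^ 2 + s1' ^ 2) - (s0 ^ 2 + s1 ^ 2)) / 2 := by
    rw [hH, show (X' - X) * (Hn / E) = (X' * Hn - X * Hn) / E by ring, hX, hX']
    field_simp
    ring
  have e : (w' * Hn / E - T * (s0' ^ 2 + s1' ^ 2) / 2) - (w * Hn / E - T * (s0 ^ 2 + s1 ^ 2) / 2) +
      (y0' * (s0' - s0) + y1' * (s1' - s1)) =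
      ((w' + X') - (w + X)) * H + ((y0' - G * a0 / E) * (s0' - s0) + (y1' - G * a1 / E) * (s1' - s1)) := by
    have e2 : w' * Hn / E = w' * H := by rw [hH]; ring
    have e3 : w * Hn / E = w * H := by rw [hH]; ring
    rw [e2, e3]
    linear_combination -e1
  rw [e]
  have q1 : |((w' + X') - (w + X)) * H| ≤ H := by
    rw [abs_mul, abs_of_pos hH0]
    nlinarith
  have q2 : |(y0' - G * a0 / E) * (s0' - s0)| ≤ ρ ^ 2 := by
    rw [abs_mul, sq]; exact mul_le_mul h0 f0 (abs_nonneg _) hρ0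
  have q3 : |(y1' - G * a1 / E) * (s1' - s1)| ≤ ρ ^ 2 := by
    rw [abs_mul, sq]; exact mul_le_mul h1 f1 (abs_nonneg _) hρ0
  have q4 := abs_add_le ((y0' - G * a0 / E) * (s0' - s0)) ((y1' - G * a1 / E) * (s1' - s1))
  have q5 := abs_add_le (((w' + X') - (w + X)) * H)
    ((y0' - G * a0 / E) * (s0' - s0) + (y1' - G * a1 / E) * (s1' - s1))
  linarith

/-- the real number behind `wsg` -/
noncomputable def wx (n h c d : ℕ) (S : Nd) : ℝ :=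
  (∑ k, (-((2:ℝ) ^ (d * n) * ((S.o k / 2 ^ ((d - c) * n) : ℤ) : ℝ)) *
      (W.s0 n (2 * c - d) (fun k => S.τ k / 2 ^ ((d - c) * n)) k - W.s0 n c S.τ k) +
    (S.T : ℝ) * 2 ^ (2 * c * n) *
      (W.s0 n (2 * c - d) (fun k => S.τ k / 2 ^ ((d - c) * n)) k ^ 2 - W.s0 n c S.τ k ^ 2) / 2)) / 2 ^ (h * n)

theorem wsg_eq (n h c d : ℕ) (S : Nd) : wsg n h c d S = S.w + ⌊wx n h c d S⌋ := rfl

theorem rho_sq {n h c d : ℕ} (hh : 2 * (d - c) ≤ h) :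
    ((2:ℝ) ^ ((d - c) * n) / 2 ^ (c * n)) ^ 2 ≤ W.hh n h c := by
  unfold W.hh
  rw [div_pow, ← pow_mul, ← pow_mul]
  have e1 : c * n * 2 = 2 * c * n := by ring
  rw [e1]
  refine div_le_div_of_nonneg_right ?_ (by positivity)
  refine pow_le_pow_right₀ (by norm_num) ?_
  calc (d - c) * n * 2 = 2 * (d - c) * n := by ring
    _ ≤ h * n := Nat.mul_le_mul_right _ hh

/-- **two planks of the same piece** -/
theorem plank_two {s : Sl} {n h c d : ℕ} {S S' : Nd} (hs : s = coneSl n h) (hcd : c ≤ d)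
    (hh : 2 * (d - c) ≤ h) (hT : S.T = S'.T)
    (hτ : ∀ k, S.τ k / 2 ^ ((d - c) * n) = S'.τ k / 2 ^ ((d - c) * n))
    (ho : ∀ k, S.o k / 2 ^ ((d - c) * n) = S'.o k / 2 ^ ((d - c) * n)) (hw : wsg n h c d S = wsg n h c d S') :
    (∀ k, |py n c S' k - py n c S k| ≤ 2 ^ ((d - c) * n) / 2 ^ (c * n)) ∧
    (∀ k, |s c S'.τ k - s c S.τ k| ≤ 2 ^ ((d - c) * n) / 2 ^ (c * n)) ∧
    |pz s n c S' - pz s n c S + (py n c S' 0 * (s c S'.τ 0 - s c S.τ 0) + py n c S' 1 * (s c S'.τ 1 - s c S.τ 1))| ≤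
      3 * W.hh n h c := by
  subst hs
  have hp : (0:ℝ) < 2 ^ (c * n) := by positivity
  have f : ∀ k, |(coneSl n h) c S'.τ k - (coneSl n h) c S.τ k| ≤ 2 ^ ((d - c) * n) / 2 ^ (c * n) := fun k => by
    show |(S'.τ k : ℝ) / 2 ^ (c * n) - (S.τ k : ℝ) / 2 ^ (c * n)| ≤ _
    rw [← sub_div, abs_div, abs_of_pos hp]
    exact div_le_div_of_nonneg_right (quo_diff (hτ k).symm) hp.le
  refine ⟨fun k => ?_, f, ?_⟩
  · show |(S'.o k : ℝ) / 2 ^ (c * n) - (S.o k : ℝ) / 2 ^ (c * n)| ≤ _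
    rw [← sub_div, abs_div, abs_of_pos hp]
    exact div_le_div_of_nonneg_right (quo_diff (ho k).symm) hp.le
  · have hρ := rho_sq (n := n) hh
    rw [wsg_eq, wsg_eq] at hw
    have hδ : |((S'.w : ℝ) + wx n h c d S') - ((S.w : ℝ) + wx n h c d S)| ≤ 1 := by
      have e1 := Int.floor_add_fract (wx n h c d S)
      have e2 := Int.floor_add_fract (wx n h c d S')
      have e3 : (S.w : ℝ) + (⌊wx n h c d S⌋ : ℝ) = S'.w + (⌊wx n h c d S'⌋ : ℝ) := by exact_mod_cast hw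
      have l1 := Int.fract_nonneg (wx n h c d S)
      have l2 := Int.fract_lt_one (wx n h c d S)
      have l3 := Int.fract_nonneg (wx n h c d S')
      have l4 := Int.fract_lt_one (wx n h c d S')
      rw [abs_le]
      constructor <;> linarith
    have hτf : (fun k => S'.τ k / 2 ^ ((d - c) * n)) = fun k => S.τ k / 2 ^ ((d - c) * n) := by
      funext k; exact (hτ k).symm
    have hpn : (0:ℝ) < 2 ^ (h * n) := by positivity
    have hy : ∀ k, |(S'.o k : ℝ) / 2 ^ (c * n) - (2:ℝ) ^ (d * n) * ((S.o k / 2 ^ ((d - c) * n) : ℤ) : ℝ) / 2 ^ (2 * c * n)| ≤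
        2 ^ ((d - c) * n) / 2 ^ (c * n) := fun k => by
      have h1 := quo_le (S'.o k) ((d - c) * n)
      rw [← ho k] at h1
      have e1 : (2:ℝ) ^ (d * n) = 2 ^ ((d - c) * n) * 2 ^ (c * n) := by
        rw [← pow_add, ← Nat.add_mul, Nat.sub_add_cancel hcd]
      have e2 : (2:ℝ) ^ (2 * c * n) = 2 ^ (c * n) * 2 ^ (c * n) := by
        rw [← pow_add]; congr 1; ring
      have e3 : (S'.o k : ℝ) / 2 ^ (c * n) - (2:ℝ) ^ (d * n) * ((S.o k / 2 ^ ((d - c) * n) : ℤ) : ℝ) / 2 ^ (2 * c * n) =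
          ((S'.o k : ℝ) - ((S.o k / 2 ^ ((d - c) * n) : ℤ) : ℝ) * 2 ^ ((d - c) * n)) / 2 ^ (c * n) := by
        rw [e1, e2]; field_simp
      rw [e3, abs_div, abs_of_pos hp]
      exact div_le_div_of_nonneg_right h1 hp.le
    have key := thin_real (w := S.w) (w' := S'.w) (X := wx n h c d S) (X' := wx n h c d S') (Hn := 2 ^ (h * n))
      (E := 2 ^ (2 * c * n)) (T := S.T) (G := 2 ^ (d * n)) (a0 := ((S.o 0 / 2 ^ ((d - c) * n) : ℤ) : ℝ))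
      (a1 := ((S.o 1 / 2 ^ ((d - c) * n) : ℤ) : ℝ))
      (b0 := W.s0 n (2 * c - d) (fun k => S.τ k / 2 ^ ((d - c) * n)) 0)
      (b1 := W.s0 n (2 * c - d) (fun k => S.τ k / 2 ^ ((d - c) * n)) 1)
      (s0 := W.s0 n c S.τ 0) (s1 := W.s0 n c S.τ 1) (s0' := W.s0 n c S'.τ 0) (s1' := W.s0 n c S'.τ 1)
      (y0' := (S'.o 0 : ℝ) / 2 ^ (c * n)) (y1' := (S'.o 1 : ℝ) / 2 ^ (c * n)) (by positivity) hpn rfl hδ
      (by unfold wx; rw [div_mul_cancel₀ _ hpn.ne', Fin.sum_univ_two])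
      (by unfold wx; rw [div_mul_cancel₀ _ hpn.ne', Fin.sum_univ_two, ← ho 0, ← ho 1, ← hT, hτf])
      (hy 0) (hy 1) (f 0) (f 1) hρ
    unfold pz py
    rw [Fin.sum_univ_two, Fin.sum_univ_two, ← hT]
    exact key

end Vale.Agent.P106.R.H812
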