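import Vale.Agent.P106.R.H540.Tools
import Vale.Agent.P106.R.H812.PQb

/-!
# P106 / R / H812 : StPQ (helper812)

The normal position and the normal slope in the frame of the piece are determined by the box of the plank, the time block and
the piece up to `2 / K`.
-/

set_option autoImplicit false

namespace Vale.Agent.P106.R.H812

open Filter Topology Finset Vale.Agent.P127 Vale.Agent.P127.Stk Vale.Agent.P127.U Vale.Agent.P127.U.Sys
  Vale.Agent.P106.R.C2 Vale.Agent.P106.R.E Vale.Agent.P106.R.H540 Vale.Agent.P106.R.E9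
open Vale.Agent.P106.W (Cbx)

theorem cap_N {K : ℕ} (F : Flg K) (i : ℕ) {ω : F.S.Ω i} (hω : 0 < (F.S.P i).w ω) (c : ℕ) (hc : c ≤ K) :
    Cap (F.n i) c (F.N c i ω).τ := by
  induction c with
  | zero =>
    intro k
    rw [(F.root i ω hω).1]
    simp
  | succ c ih =>
    have h1 := ih (by omega)
    have h2 := (F.step i ω hω c (by omega)).1
    intro k
    rw [kids, Fintype.mem_piFinset] at h2
    have h3 := Finset.mem_Ico.1 (h2 k)
    have h4 := h1 k
    have h5 : (0:ℤ) < 2 ^ F.n i := by positivity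
    constructor
    · exact le_trans (mul_nonneg h5.le h4.1) h3.1
    · refine h3.2.trans_le ?_
      calc (2:ℤ) ^ F.n i * ((F.N c i ω).τ k + 1) ≤ 2 ^ F.n i * 2 ^ (c * F.n i) :=
            mul_le_mul_of_nonneg_left (by linarith [h4.2]) h5.le
        _ = 2 ^ ((c + 1) * F.n i) := by rw [← pow_add]; congr 1; ring

theorem s_eq {K : ℕ} (F : Flg K) (a : ℕ) : F.s a = coneSl (F.n a) F.h := by
  rw [(F.slp a).cone, F.hs]

theorem pow_div_le (x y : ℕ) : (2 : ℝ) ^ x / 2 ^ y ≤ 2 ^ (x - y) := by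
  rcases le_total y x with h | h
  · obtain ⟨d, rfl⟩ := Nat.exists_eq_add_of_le h
    rw [Nat.add_sub_cancel_left, pow_add]
    refine le_of_eq ?_
    field_simp
  · rw [Nat.sub_eq_zero_of_le h, pow_zero, div_le_one (by positivity)]
    exact pow_le_pow_right₀ (by norm_num) h

theorem ov_py (n c : ℕ) (S S' : Nd) (χ : ℝ) :
    fn χ (ov S') - fn χ (ov S) = 2 ^ (c * n) * fn χ (fun k => py n c S' k - py n c S k) := by
  have hp : (2:ℝ) ^ (c * n) ≠ 0 := by positivity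
  unfold fn ov py
  field_simp
  ring

/-- trivial estimate -/
theorem two_triv {C : ℝ} {n K i j : ℕ} {s : Sl} {S S' : Nd} (hs : Slp C n K s) (hi : i ≤ K) (c : Cap n i S.τ)
    (c' : Cap n i S'.τ)
    (ho : ∀ k, S.o k / 2 ^ ((j - i) * n) = S'.o k / 2 ^ ((j - i) * n)) (ψ : ℝ) :
    |fn ψ (ov S) - fn ψ (ov S')| ≤ 2 * 2 ^ ((j - i) * n) ∧ |fn ψ (s i S.τ) - fn ψ (s i S'.τ)| ≤ 4 := by
  constructor
  · rw [← fn_sub]
    refine (abs_fn_le _ _).trans ?_
    have h0 := quo_diff (ho 0)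
    have h1 := quo_diff (ho 1)
    unfold ov
    linarith
  · rw [← fn_sub]
    refine (abs_fn_le _ _).trans ?_
    have h : ∀ k, |s i S.τ k - s i S'.τ k| ≤ 2 := fun k => by
      have h1 := abs_le.1 (hs.bd i S.τ k hi c)
      have h2 := abs_le.1 (hs.bd i S'.τ k hi c')
      rw [abs_le]; constructor <;> linarith
    linarith [h 0, h 1]

/-- finite form -/
theorem fin_PQ {K : ℕ} (F : Flg K) (hK : 1 ≤ K) (W : ℕ → F.S.RV Cbx) (_ jj : ℕ → ℕ → ℕ) {c1 : ℝ} {i j u : ℕ}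
    (ψ : ℕ → Nd → ℝ) (hij : i ≤ j) (hj : j ≤ 2 * i) (hjK : j ≤ K) (hu : i + u ≤ j) (hh : 2 * (j - i) ≤ F.h)
    (hc0 : 0 < c1) (hc1 : ((j:ℝ) - i) / K ≤ c1 / 8) (a : ℕ)
    (hW : ∀ ω, 0 < (F.S.P a).w ω → InP (F.s a) (F.n a) i (W i a ω) (F.N i a ω) ∧
      Okb (F.s a) (F.n a) i i (W i a ω) ∧ (W i a ω).u1 ≤ (1 / 2 : ℝ) ^ jj i a) :
    Stk.hc (F.S.P a) (Sys.pr (pD F i j u ψ) (qD F i j (i - u) ψ) a) (Sys.pr (vL F W i) (F.sig i j) a) ≤
      Real.log (((2 * (33 * 2 ^ ((i - u) * F.n a - jj i a) + 6) + 3) ^ 2 : ℕ) : ℝ) +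
        prb F.S (fun a ω => 3 * (2 : ℝ) ^ (-(c1 / 4 * F.S.L a)) < |Real.sin (F.wd i (W i) a ω - ψ a (F.sig i j a ω))|) a *
          Real.log (((2 * (4 * 2 ^ (K * F.n a)) + 3) ^ 2 : ℕ) : ℝ) := by
  classical
  set n := F.n a with hn
  rw [prb_eq]
  refine hc_le_ev (F.S.P a) _ _ _ _ _ fun ω hω => ?_
  set g : ℕ := (i - u) * n - jj i a with hg
  set m : ℕ := 33 * 2 ^ g + 6 with hm
  set m1 : ℕ := 4 * 2 ^ (K * n) with hm1
  set E : Prop := 3 * (2 : ℝ) ^ (-(c1 / 4 * F.S.L a)) < |Real.sin (F.wd i (W i) a ω - ψ a (F.sig i j a ω))| with hE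
  obtain ⟨M, hM1, hM2⟩ : ∃ M : ℕ, (E → M = m1) ∧ (¬ E → M = m) := by
    by_cases h : E
    · exact ⟨m1, fun _ => rfl, fun h' => absurd h h'⟩
    · exact ⟨m, fun h' => absurd h' h, fun _ => rfl⟩
  refine ⟨Finset.Icc (pD F i j u ψ a ω - ((M : ℤ) + 1)) (pD F i j u ψ a ω + ((M : ℤ) + 1)) ×ˢ
    Finset.Icc (qD F i j (i - u) ψ a ω - ((M : ℤ) + 1)) (qD F i j (i - u) ψ a ω + ((M : ℤ) + 1)), ?_, ?_, ?_⟩
  · intro h
    rw [Finset.card_product, card_win, card_win, hM1 h, ← sq]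
  · intro h
    rw [Finset.card_product, card_win, card_win, hM2 h, ← sq]
  intro ω' hω' e
  have e1 : W i a ω' = W i a ω := congrArg (fun x => x.1.1) e
  have e2 : F.ball i a ω' = F.ball i a ω := congrArg (fun x => x.1.2) e
  have e3 : F.sig i j a ω' = F.sig i j a ω := congrArg (fun x => x.2) e
  obtain ⟨w1, w2, w3⟩ := hW ω hω
  obtain ⟨w1', -, -⟩ := hW ω' hω'
  rw [e1] at w1'
  have hT : (F.N i a ω).T = (F.N i a ω').T := e2.symm
  have hτ : ∀ k, (F.N i a ω).τ k / 2 ^ ((j - i) * n) = (F.N i a ω').τ k / 2 ^ ((j - i) * n) := fun k =>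
    (congrFun (congrArg Nd.τ e3) k).symm
  have ho : ∀ k, (F.N i a ω).o k / 2 ^ ((j - i) * n) = (F.N i a ω').o k / 2 ^ ((j - i) * n) := fun k =>
    (congrFun (congrArg Nd.o e3) k).symm
  have hw : wsg n F.h i j (F.N i a ω) = wsg n F.h i j (F.N i a ω') := (congrArg Nd.w e3).symm
  have hcap := cap_N F a hω i (by omega)
  have hcap' := cap_N F a hω' i (by omega)
  set χ := ψ a (F.sig i j a ω) with hχ
  have key : |fn χ (ov (F.N i a ω')) / 2 ^ (u * n) - fn χ (ov (F.N i a ω)) / 2 ^ (u * n)| ≤ M ∧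
      |2 ^ ((i - u) * n) * fn χ (F.s a i (F.N i a ω').τ) - 2 ^ ((i - u) * n) * fn χ (F.s a i (F.N i a ω).τ)| ≤ M := by
    have hp : (0 : ℝ) < 2 ^ (u * n) := by positivity
    have hp1 : (1 : ℝ) ≤ 2 ^ (u * n) := one_le_pow₀ (by norm_num)
    have hq : (0 : ℝ) < 2 ^ ((i - u) * n) := by positivity
    have hr : (0 : ℝ) < 2 ^ (i * n) := by positivity
    rw [← sub_div, abs_div, abs_of_pos hp, ← mul_sub, abs_mul, abs_of_pos hq]
    by_cases h : E
    · rw [hM1 h, hm1]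
      obtain ⟨t1, t2⟩ := two_triv (S := F.N i a ω) (S' := F.N i a ω') (F.slp a) (by omega : i ≤ K) hcap hcap' ho χ
      rw [abs_sub_comm] at t1 t2
      push_cast
      constructor
      · rw [div_le_iff₀ hp]
        have h1 : (2 : ℝ) ^ ((j - i) * n) ≤ 2 ^ (K * n) := pow_le_pow_right₀ (by norm_num) (Nat.mul_le_mul_right n (by omega))
        have h2 : (0 : ℝ) < 2 ^ (K * n) := by positivity
        nlinarith
      · have h1 : (2 : ℝ) ^ ((i - u) * n) ≤ 2 ^ (K * n) := pow_le_pow_right₀ (by norm_num) (Nat.mul_le_mul_right n (by omega))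
        calc (2 : ℝ) ^ ((i - u) * n) * _ ≤ 2 ^ (K * n) * 4 := mul_le_mul h1 t2 (abs_nonneg _) (by positivity)
          _ = _ := by ring
    · rw [hM2 h, hm]
      obtain ⟨p1, p2, p3⟩ := plank_two (s_eq F a) hij hh hT hτ ho hw
      set S := F.N i a ω with hS
      set S' := F.N i a ω' with hS'
      have hIn : (W i a ω).In (Vale.Agent.P106.W.hh n F.h i) (py n i S) (F.s a i S.τ) (pz (F.s a) n i S) := by
        have := w1
        unfold InP at this
        rwa [F.hs] at this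
      have hIn' : (W i a ω).In (Vale.Agent.P106.W.hh n F.h i) (py n i S') (F.s a i S'.τ) (pz (F.s a) n i S') := by
        have := w1'
        unfold InP at this
        rwa [F.hs] at this
      have hok : (W i a ω).ok (1 / 8) (2 ^ (i * n) / 2 ^ (2 * i * n)) (Vale.Agent.P106.W.hh n F.h i) := by
        have := w2
        unfold Okb at this
        rwa [F.hs] at this
      obtain ⟨b1, b2⟩ := box_two hok hIn hIn' p1 p2 (rho_sq hh) p3
      have hψ : |Real.sin (χ - bang (W i a ω) (py n i S) (F.s a i S.τ))| ≤ 3 / 2 ^ ((j - i) * n) := by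
        have hE' : |Real.sin (F.wd i (W i) a ω - χ)| ≤ 3 * (2 : ℝ) ^ (-(c1 / 4 * F.S.L a)) := not_lt.1 h
        have e0 : |Real.sin (χ - bang (W i a ω) (py n i S) (F.s a i S.τ))| = |Real.sin (F.wd i (W i) a ω - χ)| := by
          rw [← abs_neg, ← Real.sin_neg, neg_sub]
          rfl
        rw [e0]
        refine hE'.trans ?_
        have hL' : (F.S.L a : ℝ) = K * n := by rw [F.L_eq a]; push_cast; rfl
        have hK0 : (0:ℝ) < K := by exact_mod_cast hK
        have h1 : (((j - i) * n : ℕ) : ℝ) ≤ c1 / 4 * F.S.L a := by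
          rw [div_le_iff₀ hK0] at hc1
          rw [hL']
          push_cast [Nat.cast_sub hij]
          have := mul_le_mul_of_nonneg_right hc1 (Nat.cast_nonneg n : (0:ℝ) ≤ n)
          have h2 : 0 ≤ c1 / 8 * K * n := by positivity
          linarith
        have h2 : (2 : ℝ) ^ (-(c1 / 4 * F.S.L a)) ≤ (2 : ℝ) ^ (-(((j - i) * n : ℕ) : ℝ)) :=
          Real.rpow_le_rpow_of_exponent_le (by norm_num) (by linarith)
        have h3 : (2 : ℝ) ^ (-(((j - i) * n : ℕ) : ℝ)) = (2 ^ ((j - i) * n))⁻¹ := by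
          rw [Real.rpow_neg (by norm_num), Real.rpow_natCast]
        rw [h3] at h2
        exact (mul_le_mul_of_nonneg_left h2 (by norm_num)).trans (le_of_eq (div_eq_mul_inv _ _).symm)
      have hrot : ∀ (v : Fin 2 → ℝ) (r : ℝ), (∀ k, |v k| ≤ 2 ^ ((j - i) * n) / 2 ^ (i * n)) →
          |fn (bang (W i a ω) (py n i S) (F.s a i S.τ)) v| ≤ r → |fn χ v| ≤ r + 6 / 2 ^ (i * n) := fun v r hv hr' => by
        have f1 := fn_frame (bang (W i a ω) (py n i S) (F.s a i S.τ)) χ v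
        have f2 : |Real.sin (χ - bang (W i a ω) (py n i S) (F.s a i S.τ))| * (|v 0| + |v 1|) ≤
            3 / 2 ^ ((j - i) * n) * (2 * (2 ^ ((j - i) * n) / 2 ^ (i * n))) :=
          mul_le_mul hψ (by linarith [hv 0, hv 1]) (by positivity) (by positivity)
        have f3 : (3:ℝ) / 2 ^ ((j - i) * n) * (2 * (2 ^ ((j - i) * n) / 2 ^ (i * n))) = 6 / 2 ^ (i * n) := by
          field_simp
          norm_num
        linarith
      have hu1 : (W i a ω).u1 ≤ 1 / 2 ^ jj i a := by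
        refine w3.trans (le_of_eq ?_)
        rw [one_div, inv_pow, one_div]
      have b1' := hrot _ _ p1 b1
      have b2' := hrot _ _ p2 b2
      have h3 := pow_div_le ((i - u) * n) (jj i a)
      rw [← hg] at h3
      have h5 : (2 : ℝ) ^ (i * n) = 2 ^ ((i - u) * n) * 2 ^ (u * n) := by
        rw [← pow_add, ← Nat.add_mul]
        congr 2
        omega
      have h6 : (2 : ℝ) ^ ((i - u) * n) * (6 / 2 ^ (i * n)) ≤ 6 := by
        rw [mul_div_assoc', div_le_iff₀ hr]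
        have : (2 : ℝ) ^ ((i - u) * n) ≤ 2 ^ (i * n) := pow_le_pow_right₀ (by norm_num) (Nat.mul_le_mul_right n (by omega))
        linarith
      have h7 : (2 : ℝ) ^ ((i - u) * n) * (W i a ω).u1 ≤ 2 ^ g := by
        refine (mul_le_mul_of_nonneg_left hu1 hq.le).trans ?_
        rw [mul_one_div]
        exact h3
      have h8 : (0:ℝ) < 2 ^ g := by positivity
      push_cast
      constructor
      · rw [div_le_iff₀ hp, ov_py n i, abs_mul, abs_of_pos hr]
        have h9 : (2:ℝ) ^ (i * n) * |fn χ fun k => py n i S' k - py n i S k| =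
            (2 ^ ((i - u) * n) * |fn χ fun k => py n i S' k - py n i S k|) * 2 ^ (u * n) := by
          rw [h5]; ring
        rw [h9]
        refine mul_le_mul_of_nonneg_right ?_ hp.le
        refine (mul_le_mul_of_nonneg_left b1' hq.le).trans ?_
        rw [mul_add]
        nlinarith
      · rw [← fn_sub]
        refine (mul_le_mul_of_nonneg_left b2' hq.le).trans ?_
        rw [mul_add]
        nlinarith
  rw [Finset.mem_product]
  constructor
  · show pD F i j u ψ a ω' ∈ _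
    have h1 : pD F i j u ψ a ω' = ⌊fn χ (ov (F.N i a ω')) / 2 ^ (u * n)⌋ := by
      unfold pD pdg
      rw [e3]
    rw [h1]
    exact floor_mem key.1
  · show qD F i j (i - u) ψ a ω' ∈ _
    have h1 : qD F i j (i - u) ψ a ω' = ⌊2 ^ ((i - u) * n) * fn χ (F.s a i (F.N i a ω').τ)⌋ := by
      unfold qD
      rw [e3]
      rfl
    rw [h1]
    exact floor_mem key.2

theorem log_good (g : ℕ) :
    Real.log (((2 * (33 * 2 ^ g + 6) + 3) ^ 2 : ℕ) : ℝ) ≤ 2 * (g * Real.log 2) + 2 * Real.log 81 := by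
  push_cast
  rw [Real.log_pow]
  push_cast
  have h1 : (2 * (33 * (2:ℝ) ^ g + 6) + 3) ≤ 2 ^ g * 81 := by
    have : (1 : ℝ) ≤ 2 ^ g := one_le_pow₀ (by norm_num)
    linarith
  have h2 := Real.log_le_log (by positivity) h1
  rw [Real.log_mul (by positivity) (by positivity), Real.log_pow] at h2
  linarith

/-- StPQ with the frame at the level `i` only -/
theorem pq1 {K : ℕ} (F : Flg K) (J θ H e : ℕ → ℝ) (W : ℕ → F.S.RV Cbx) (kk jj : ℕ → ℕ → ℕ) (hK : 1 ≤ K)
    (hA : RegA F J θ H e W kk jj) (c1 : ℝ) (i j u : ℕ) (ψ : ℕ → Nd → ℝ) (hij : i ≤ j) (hj : j ≤ 2 * i)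
    (hjK : j ≤ K) (hu : i + u ≤ j) (hh : 2 * (j - i) ≤ F.h) (hc1 : 0 < c1) (hc1' : ((j:ℝ) - i) / K ≤ c1 / 8)
    (hα : |nα F jj i - ((i:ℝ) + u) / K| ≤ 1 / K)
    (hR : Rare F.S fun a ω => 3 * (2 : ℝ) ^ (-(c1 / 4 * F.S.L a)) < |Real.sin (F.wd i (W i) a ω - ψ a (F.sig i j a ω))|) :
    F.S.hc (Sys.pr (pD F i j u ψ) (qD F i j (i - u) ψ)) (Sys.pr (vL F W i) (F.sig i j)) ≤ 2 / K := by
  have hK0 : (0:ℝ) < K := by exact_mod_cast hK
  have hiK : i ≤ K := by omega
  have hT : Tame (Sys.pr (pD F i j u ψ) (qD F i j (i - u) ψ)) := by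
    refine Sys_tame_fn (tame_of_cnt (hA.N1 i hiK)) fun a => ⟨fun S =>
      (pdg (F.n a) u (ψ a ⟨fun k => S.τ k / 2 ^ ((j - i) * F.n a), fun k => S.o k / 2 ^ ((j - i) * F.n a), S.T,
          wsg (F.n a) F.h i j S⟩) S,
        ⌊2 ^ ((i - u) * F.n a) * fn (ψ a ⟨fun k => S.τ k / 2 ^ ((j - i) * F.n a), fun k => S.o k / 2 ^ ((j - i) * F.n a), S.T,
          wsg (F.n a) F.h i j S⟩)
          (F.s a i S.τ)⌋), fun ω => rfl⟩
  refine le_of_forall_pos_le_add fun ε hε => ?_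
  refine hc_le_rare hT hR (2 / K + ε) (2 * Real.log 81) 3 (by norm_num) ?_
  have hub : UB fun a => (jj i a : ℝ) / F.S.L a := by
    refine UB.of_le (C := 1) (Eventually.of_forall fun a => by positivity) ?_
    filter_upwards [hA.Wok i hiK, F.S.L_pos] with a ha hL
    obtain ⟨ω, hω⟩ := exists_pos (F.S.P a)
    have h1 := (ha ω hω).2.2.2.2.2
    rw [div_le_one (by exact_mod_cast hL), F.L_eq]
    exact_mod_cast h1.trans (Nat.mul_le_mul_right _ hiK)
  have hnu : ((i:ℝ) - u - 1) / K - ε / 2 < ulim fun a => (jj i a : ℝ) / F.S.L a := by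
    have h1 : F.S.nu (jj i) = ulim fun a => (jj i a : ℝ) / F.S.L a := rfl
    rw [← h1]
    unfold nα at hα
    have h2 := (abs_le.1 hα).2
    have e : ((i:ℝ) - u - 1) / K = 2 * i / K - (i + u) / K - 1 / K := by field_simp; ring
    rw [e]; linarith
  have hlog11 : ∀ᶠ a in (uf : Filter ℕ), 2 * Real.log 11 ≤ F.S.nm a := F.S.nm_tendsto.eventually_ge_atTop _
  filter_upwards [hA.Wok i hiK, F.S.L_pos, lt_ulim_eventually hub hnu, hlog11] with a ha hL hja h11
  have hLr : (0:ℝ) < F.S.L a := by exact_mod_cast hL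
  have hLe : (F.S.L a : ℝ) = K * F.n a := by rw [F.L_eq]; push_cast; rfl
  have h1 := fin_PQ F hK W kk jj (c1 := c1) ψ hij hj hjK hu hh hc1 hc1' a
    (fun ω hω => ⟨(ha ω hω).1, (ha ω hω).2.1, (ha ω hω).2.2.2.1.2⟩)
  have hl2 : 0 < Real.log 2 := Real.log_pos (by norm_num)
  have hprb : 0 ≤ prb F.S (fun a ω => 3 * (2 : ℝ) ^ (-(c1 / 4 * F.S.L a)) < |Real.sin (F.wd i (W i) a ω - ψ a (F.sig i j a ω))|) a := by
    unfold prb
    refine Finset.sum_nonneg fun ω _ => mul_nonneg ((F.S.P a).nn ω) ?_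
    beta_reduce
    split_ifs <;> norm_num
  have h2 := log_good ((i - u) * F.n a - jj i a)
  have h3 : Real.log (((2 * (4 * 2 ^ (K * F.n a)) + 3) ^ 2 : ℕ) : ℝ) ≤ 3 * F.S.nm a := by
    push_cast
    rw [Real.log_pow]
    push_cast
    have h4 : (2 * (4 * (2:ℝ) ^ (K * F.n a)) + 3) ≤ 2 ^ (K * F.n a) * 11 := by
      have : (1 : ℝ) ≤ 2 ^ (K * F.n a) := one_le_pow₀ (by norm_num)
      nlinarith
    have h5 := Real.log_le_log (by positivity) h4
    rw [Real.log_mul (by positivity) (by positivity), Real.log_pow] at h5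
    have h6 : F.S.nm a = ((K * F.n a : ℕ) : ℝ) * Real.log 2 := by
      rw [nm_eq, F.L_eq]
    rw [h6] at h11 ⊢
    linarith
  have h7 : (((i - u) * F.n a - jj i a : ℕ) : ℝ) * Real.log 2 ≤ (1 / K + ε / 2) * F.S.nm a := by
    rw [nm_eq, ← mul_assoc]
    refine mul_le_mul_of_nonneg_right ?_ hl2.le
    rcases le_total (jj i a) ((i - u) * F.n a) with h8 | h8
    · rw [Nat.cast_sub h8]
      rw [lt_div_iff₀ hLr] at hja
      have h9 : (((i - u) * F.n a : ℕ) : ℝ) = ((i:ℝ) - u) * F.n a := by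
        have hui : u ≤ i := by omega
        push_cast [Nat.cast_sub hui]; ring
      rw [h9]
      have h10 : (((i:ℝ) - u - 1) / K - ε / 2) * F.S.L a = ((i:ℝ) - u - 1) * F.n a - ε / 2 * F.S.L a := by
        rw [hLe]; field_simp
      have h12 : (1 / (K:ℝ) + ε / 2) * F.S.L a = F.n a + ε / 2 * F.S.L a := by
        rw [hLe]; field_simp
      rw [h10] at hja
      rw [h12]
      linarith
    · rw [Nat.sub_eq_zero_of_le h8]
      push_cast
      positivity
  have h8 : prb F.S (fun a ω => 3 * (2 : ℝ) ^ (-(c1 / 4 * F.S.L a)) < |Real.sin (F.wd i (W i) a ω - ψ a (F.sig i j a ω))|) a *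
      Real.log (((2 * (4 * 2 ^ (K * F.n a)) + 3) ^ 2 : ℕ) : ℝ) ≤
      prb F.S (fun a ω => 3 * (2 : ℝ) ^ (-(c1 / 4 * F.S.L a)) < |Real.sin (F.wd i (W i) a ω - ψ a (F.sig i j a ω))|) a *
        (3 * F.S.nm a) := mul_le_mul_of_nonneg_left h3 hprb
  have h9 : (2 / (K:ℝ) + ε) * F.S.nm a = 2 * ((1 / K + ε / 2) * F.S.nm a) := by ring
  rw [h9]
  linarith

theorem stPQ : StPQ := by
  intro K F J θ H e W kk jj hK hA c1 i j u ψ hi hij hj hjK hu hh hc1 hc1' hα hFr
  exact pq1 F J θ H e W kk jj hK hA c1 i j u ψ hij hj hjK hu hh hc1 hc1' hα (hFr i hi (by omega) hij)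

end Vale.Agent.P106.R.H812
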