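import Vale.Agent.P106.R.E9.Spec

/-!
# P106 / R / H812 : StPQ, finite part (helper812)

Two planks of level `i` of the same conformal box and the same piece: the normal components (wide direction of the box at
the first plank) of the differences of the positions and of the slopes are `O(u1)`.
-/

set_option autoImplicit false

namespace Vale.Agent.P106.R.H812

open Vale.Agent.P106.R.C2 Vale.Agent.P106.R.E Vale.Agent.P106.R.H540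
open Vale.Agent.P106.W (Cbx)

/-! ### the wide direction -/

/-- the normal component in the wide direction -/
theorem fn_bang (B : Cbx) (y s v : Fin 2 → ℝ) :
    ‖(⟨bnv B y s 1, -(bnv B y s 0)⟩ : ℂ)‖ * fn (bang B y s) v = bnv B y s 0 * v 0 + bnv B y s 1 * v 1 := by
  have h1 := Complex.norm_mul_cos_arg (⟨bnv B y s 1, -(bnv B y s 0)⟩ : ℂ)
  have h2 := Complex.norm_mul_sin_arg (⟨bnv B y s 1, -(bnv B y s 0)⟩ : ℂ)
  simp only at h1 h2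
  unfold bang
  unfold fn
  linear_combination (v 1) * h1 - (v 0) * h2

theorem bnv0 (B : Cbx) (y s : Fin 2 → ℝ) :
    bnv B y s 0 = -Real.sin B.θ + B.κ * (s 0 - B.v 0) - 2 * B.α * (y 0 - B.p 0) := by
  simp [bnv]

theorem bnv1 (B : Cbx) (y s : Fin 2 → ℝ) :
    bnv B y s 1 = Real.cos B.θ + B.κ * (s 1 - B.v 1) - 2 * B.α * (y 1 - B.p 1) := by
  simp [bnv]

theorem mul_le_of_u {a x u c : ℝ} (h : |a| * u ≤ c) (hx : |x| ≤ u) : |a * x| ≤ c := by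
  rw [abs_mul]
  exact (mul_le_mul_of_nonneg_left hx (abs_nonneg a)).trans h

theorem nrm_real {S C e0 e1 R : ℝ} (h1 : S ^ 2 + C ^ 2 = 1) (h2 : |e0| ≤ 3 / 8) (h3 : |e1| ≤ 3 / 8) (hR : 0 ≤ R)
    (h4 : R ^ 2 = (C + e1) ^ 2 + (-S + e0) ^ 2) : 2 / 5 ≤ R := by
  by_contra hcon
  push Not at hcon
  have h5 : R ^ 2 < 4 / 25 := by nlinarith
  rw [h4] at h5
  have a2 : e0 ^ 2 ≤ 9 / 64 := by
    have := abs_le.1 h2; nlinarith
  have a3 : e1 ^ 2 ≤ 9 / 64 := by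
    have := abs_le.1 h3; nlinarith
  -- (C, -S) = w - e, |w|² < 4/25, |e|² ≤ 9/32, 1 ≤ (1 + t)|w|² + (1 + 1/t)|e|² with t = 4/3
  nlinarith [sq_nonneg (4 * (C + e1) + 3 * e1), sq_nonneg (4 * (-S + e0) + 3 * e0)]

theorem nrm_ge {B : Cbx} {H : ℝ} {y s : Fin 2 → ℝ} {z : ℝ} (h : B.In H y s z) (hα : |B.α| * B.u2 ≤ 1 / 8)
    (hκ : |B.κ| * B.u2 ≤ 1 / 8) : 2 / 5 ≤ ‖(⟨bnv B y s 1, -(bnv B y s 0)⟩ : ℂ)‖ := by
  obtain ⟨h1, h2, -⟩ := h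
  have e : ∀ k, |B.κ * (s k - B.v k) - 2 * B.α * (y k - B.p k)| ≤ 3 / 8 := fun k => by
    have a1 := mul_le_of_u hκ (h2 k)
    have a2 := mul_le_of_u hα (h1 k)
    have a3 := abs_sub (B.κ * (s k - B.v k)) (2 * B.α * (y k - B.p k))
    rw [show 2 * B.α * (y k - B.p k) = 2 * (B.α * (y k - B.p k)) by ring, abs_mul 2, abs_two] at a3
    rw [show 2 * B.α * (y k - B.p k) = 2 * (B.α * (y k - B.p k)) by ring]
    linarith
  refine nrm_real (S := Real.sin B.θ) (C := Real.cos B.θ) (Real.sin_sq_add_cos_sq _) (e 0) (e 1) (norm_nonneg _) ?_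
  rw [← Complex.normSq_eq_norm_sq, Complex.normSq_apply]
  simp only [bnv0, bnv1]
  ring

/-- bound of the normal component in the wide direction -/
theorem fn_bang_le {B : Cbx} {H : ℝ} {y s : Fin 2 → ℝ} {z : ℝ} (h : B.In H y s z) (hα : |B.α| * B.u2 ≤ 1 / 8)
    (hκ : |B.κ| * B.u2 ≤ 1 / 8) {v : Fin 2 → ℝ} {r : ℝ} (hv : |bnv B y s 0 * v 0 + bnv B y s 1 * v 1| ≤ r) :
    |fn (bang B y s) v| ≤ 5 / 2 * r := by
  have h1 := nrm_ge h hα hκ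
  rw [← fn_bang, abs_mul, abs_of_nonneg (norm_nonneg _)] at hv
  nlinarith [abs_nonneg (fn (bang B y s) v)]

/-! ### two rays of a box -/

theorem dif_real1 {S C κ α p0 p1 v0 v1 ω y0 y1 s0 s1 z y0' y1' s0' s1' z' u1 H ρ : ℝ}
    (g : |(-S * (y0 - p0) + C * (y1 - p1)) + κ * (z + (y0 * (s0 - v0) + y1 * (s1 - v1)) - ω) -
      α * ((y0 - p0) ^ 2 + (y1 - p1) ^ 2)| ≤ u1)
    (g' : |(-S * (y0' - p0) + C * (y1' - p1)) + κ * (z' + (y0' * (s0' - v0) + y1' * (s1' - v1)) - ω) -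
      α * ((y0' - p0) ^ 2 + (y1' - p1) ^ 2)| ≤ u1)
    (d0 : |y0' - y0| ≤ ρ) (d1 : |y1' - y1| ≤ ρ) (hρ : ρ ^ 2 ≤ H)
    (hz : |z' - z + (y0' * (s0' - s0) + y1' * (s1' - s1))| ≤ 3 * H) (hα : |α| * H ≤ u1) (hκ : |κ| * H ≤ u1) :
    |(-S + κ * (s0 - v0) - 2 * α * (y0 - p0)) * (y0' - y0) + (C + κ * (s1 - v1) - 2 * α * (y1 - p1)) * (y1' - y1)| ≤
      7 * u1 := by
  have e : (-S + κ * (s0 - v0) - 2 * α * (y0 - p0)) * (y0' - y0) + (C + κ * (s1 - v1) - 2 * α * (y1 - p1)) * (y1' - y1) =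
      ((-S * (y0' - p0) + C * (y1' - p1)) + κ * (z' + (y0' * (s0' - v0) + y1' * (s1' - v1)) - ω) -
        α * ((y0' - p0) ^ 2 + (y1' - p1) ^ 2)) -
      ((-S * (y0 - p0) + C * (y1 - p1)) + κ * (z + (y0 * (s0 - v0) + y1 * (s1 - v1)) - ω) -
        α * ((y0 - p0) ^ 2 + (y1 - p1) ^ 2)) -
      κ * (z' - z + (y0' * (s0' - s0) + y1' * (s1' - s1))) + α * ((y0' - y0) ^ 2 + (y1' - y1) ^ 2) := by ring
  have a1 : |κ * (z' - z + (y0' * (s0' - s0) + y1' * (s1' - s1)))| ≤ 3 * u1 := by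
    rw [abs_mul]
    nlinarith [mul_le_mul_of_nonneg_left hz (abs_nonneg κ)]
  have a2 : |α * ((y0' - y0) ^ 2 + (y1' - y1) ^ 2)| ≤ 2 * u1 := by
    rw [abs_mul, abs_of_nonneg (by positivity : 0 ≤ (y0' - y0) ^ 2 + (y1' - y1) ^ 2)]
    have b0 : (y0' - y0) ^ 2 ≤ ρ ^ 2 := by rw [← sq_abs (y0' - y0)]; exact pow_le_pow_left₀ (abs_nonneg _) d0 2
    have b1 : (y1' - y1) ^ 2 ≤ ρ ^ 2 := by rw [← sq_abs (y1' - y1)]; exact pow_le_pow_left₀ (abs_nonneg _) d1 2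
    nlinarith [abs_nonneg α, mul_le_mul_of_nonneg_left (by linarith : (y0' - y0) ^ 2 + (y1' - y1) ^ 2 ≤ 2 * H) (abs_nonneg α)]
  rw [e]
  rw [abs_le] at *
  constructor <;> linarith [g.1, g.2, g'.1, g'.2, a1.1, a1.2, a2.1, a2.2]

theorem dif_real2 {S C κ α p0 p1 v0 v1 ω y0 y1 s0 s1 z y0' y1' s0' s1' z' u1 H ρ : ℝ}
    (g : |(-S * (s0 - v0) + C * (s1 - v1)) + κ * ((s0 - v0) ^ 2 + (s1 - v1) ^ 2) / 2 +
      2 * α * (z + (p0 * (s0 - v0) + p1 * (s1 - v1)) - ω)| ≤ u1)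
    (g' : |(-S * (s0' - v0) + C * (s1' - v1)) + κ * ((s0' - v0) ^ 2 + (s1' - v1) ^ 2) / 2 +
      2 * α * (z' + (p0 * (s0' - v0) + p1 * (s1' - v1)) - ω)| ≤ u1)
    (d0 : |y0' - y0| ≤ ρ) (d1 : |y1' - y1| ≤ ρ) (f0 : |s0' - s0| ≤ ρ) (f1 : |s1' - s1| ≤ ρ) (hρ : ρ ^ 2 ≤ H)
    (hz : |z' - z + (y0' * (s0' - s0) + y1' * (s1' - s1))| ≤ 3 * H) (hα : |α| * H ≤ u1) (hκ : |κ| * H ≤ u1) :
    |(-S + κ * (s0 - v0) - 2 * α * (y0 - p0)) * (s0' - s0) + (C + κ * (s1 - v1) - 2 * α * (y1 - p1)) * (s1' - s1)| ≤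
      13 * u1 := by
  have e : (-S + κ * (s0 - v0) - 2 * α * (y0 - p0)) * (s0' - s0) + (C + κ * (s1 - v1) - 2 * α * (y1 - p1)) * (s1' - s1) =
      ((-S * (s0' - v0) + C * (s1' - v1)) + κ * ((s0' - v0) ^ 2 + (s1' - v1) ^ 2) / 2 +
        2 * α * (z' + (p0 * (s0' - v0) + p1 * (s1' - v1)) - ω)) -
      ((-S * (s0 - v0) + C * (s1 - v1)) + κ * ((s0 - v0) ^ 2 + (s1 - v1) ^ 2) / 2 +
        2 * α * (z + (p0 * (s0 - v0) + p1 * (s1 - v1)) - ω)) -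
      2 * (α * (z' - z + (y0' * (s0' - s0) + y1' * (s1' - s1)))) +
      2 * (α * ((y0' - y0) * (s0' - s0) + (y1' - y1) * (s1' - s1))) -
      κ * ((s0' - s0) ^ 2 + (s1' - s1) ^ 2) / 2 := by ring
  have hρ0 : 0 ≤ ρ := (abs_nonneg _).trans d0
  have a1 : |α * (z' - z + (y0' * (s0' - s0) + y1' * (s1' - s1)))| ≤ 3 * u1 := by
    rw [abs_mul]
    nlinarith [mul_le_mul_of_nonneg_left hz (abs_nonneg α)]
  have a2 : |α * ((y0' - y0) * (s0' - s0) + (y1' - y1) * (s1' - s1))| ≤ 2 * u1 := by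
    rw [abs_mul]
    have b0 : |(y0' - y0) * (s0' - s0)| ≤ ρ ^ 2 := by
      rw [abs_mul, sq]; exact mul_le_mul d0 f0 (abs_nonneg _) hρ0
    have b1 : |(y1' - y1) * (s1' - s1)| ≤ ρ ^ 2 := by
      rw [abs_mul, sq]; exact mul_le_mul d1 f1 (abs_nonneg _) hρ0
    have b2 := (abs_add_le ((y0' - y0) * (s0' - s0)) ((y1' - y1) * (s1' - s1)))
    nlinarith [abs_nonneg α, mul_le_mul_of_nonneg_left (by linarith :
      |(y0' - y0) * (s0' - s0) + (y1' - y1) * (s1' - s1)| ≤ 2 * H) (abs_nonneg α)]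
  have a3 : |κ * ((s0' - s0) ^ 2 + (s1' - s1) ^ 2) / 2| ≤ u1 := by
    rw [abs_div, abs_two, abs_mul, abs_of_nonneg (by positivity : 0 ≤ (s0' - s0) ^ 2 + (s1' - s1) ^ 2)]
    have b0 : (s0' - s0) ^ 2 ≤ ρ ^ 2 := by rw [← sq_abs (s0' - s0)]; exact pow_le_pow_left₀ (abs_nonneg _) f0 2
    have b1 : (s1' - s1) ^ 2 ≤ ρ ^ 2 := by rw [← sq_abs (s1' - s1)]; exact pow_le_pow_left₀ (abs_nonneg _) f1 2
    nlinarith [abs_nonneg κ, mul_le_mul_of_nonneg_left (by linarith : (s0' - s0) ^ 2 + (s1' - s1) ^ 2 ≤ 2 * H) (abs_nonneg κ)]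
  rw [e]
  rw [abs_le] at *
  constructor <;> linarith [g.1, g.2, g'.1, g'.2, a1.1, a1.2, a2.1, a2.2, a3.1, a3.2]

/-- **two rays of a box** at distance `ρ`, `ρ² ≤ H` -/
theorem box_two {B : Cbx} {r H ρ : ℝ} {y s y' s' : Fin 2 → ℝ} {z z' : ℝ} (hB : B.ok (1 / 8) r H) (h : B.In H y s z)
    (h' : B.In H y' s' z') (hy : ∀ k, |y' k - y k| ≤ ρ) (hs : ∀ k, |s' k - s k| ≤ ρ) (hρ : ρ ^ 2 ≤ H)
    (hz : |z' - z + (y' 0 * (s' 0 - s 0) + y' 1 * (s' 1 - s 1))| ≤ 3 * H) :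
    |fn (bang B y s) (fun k => y' k - y k)| ≤ 35 / 2 * B.u1 ∧ |fn (bang B y s) (fun k => s' k - s k)| ≤ 65 / 2 * B.u1 := by
  obtain ⟨-, -, -, g0, g1⟩ := id h
  obtain ⟨-, -, -, g0', g1'⟩ := h'
  simp only [fn, Pi.sub_apply, Fin.sum_univ_two] at g0 g1 g0' g1'
  constructor
  · have h1 := dif_real1 (S := Real.sin B.θ) (C := Real.cos B.θ) g0 g0' (hy 0) (hy 1) hρ hz hB.αH hB.κH
    have h2 := fn_bang_le (v := fun k => y' k - y k) h hB.α2 hB.κ2 (r := 7 * B.u1) (by rw [bnv0, bnv1]; exact h1)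
    linarith
  · have h1 := dif_real2 (S := Real.sin B.θ) (C := Real.cos B.θ) g1 g1' (hy 0) (hy 1) (hs 0) (hs 1) hρ hz hB.αH hB.κH
    have h2 := fn_bang_le (v := fun k => s' k - s k) h hB.α2 hB.κ2 (r := 13 * B.u1) (by rw [bnv0, bnv1]; exact h1)
    linarith

end Vale.Agent.P106.R.H812
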